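import Vale.Agent.P181.MD.H187.Exp

/-!
# P181, MD: one class per coordinate (points `e_(cl u) + X Y u`)
-/

set_option autoImplicit false

namespace Vale.Agent.P181.MD.H187

open Finset Polynomial

/-- the basis row -/
noncomputable def bs {m : ℕ} (i : Fin m) : Fin m → ℂ := fun s => if i = s then 1 else 0

/-- the minor of the points `e_(cl (e a)) + X Y (e a)` -/
noncomputable def mm {m : ℕ} (π : Fin m → Fin m) (Y : Fin m → Fin m → ℂ) : ℂ[X] :=
  (Matrix.of fun a s : Fin m => (C (bs (π a) s) + X * C (Y a s) : ℂ[X])).det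

lemma det_bs_ne {m : ℕ} (π : Fin m → Fin m) (hπ : Function.Injective π) :
    (Matrix.of fun a : Fin m => bs (π a)).det ≠ 0 := by
  classical
  let σ : Equiv.Perm (Fin m) := Equiv.ofBijective π (Finite.injective_iff_bijective.1 hπ)
  have h : (Matrix.of fun a : Fin m => bs (π a)) =
      (1 : Matrix (Fin m) (Fin m) ℂ).submatrix σ id := by
    ext a s
    rw [Matrix.of_apply, Matrix.submatrix_apply, Matrix.one_apply, bs]
    rfl
  rw [h, Matrix.det_permute, Matrix.det_one, mul_one]
  exact_mod_cast Units.ne_zero (Equiv.Perm.sign σ)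

/-- the missed classes give the order -/
theorem dvd_mm {m : ℕ} (π : Fin m → Fin m) (Y : Fin m → Fin m → ℂ) :
    X ^ (univ.filter fun i => ∀ a, π a ≠ i).card ∣ mm π Y := by
  classical
  have h := dvd_det (fun a => bs (π a)) Y π (fun a b h => by rw [h])
  have h1 : (univ.filter fun i => ∀ a, π a ≠ i) = (univ.image π)ᶜ := by
    ext i
    rw [mem_filter, mem_compl, mem_image]
    constructor
    · rintro ⟨-, h⟩ ⟨a, -, ha⟩
      exact h a ha
    · intro h
      exact ⟨mem_univ _, fun a ha => h ⟨a, mem_univ _, ha⟩⟩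
  rw [h1, card_compl, Fintype.card_fin]
  exact h

theorem coeff_mm_zero {m : ℕ} (π : Fin m → Fin m) (Y : Fin m → Fin m → ℂ)
    (hπ : Function.Injective π) : (mm π Y).coeff 0 ≠ 0 := by
  rw [mm, coeff_zero']
  exact det_bs_ne π hπ

/-- exactly one missed class: the doubled letters -/
lemma update_inj {m : ℕ} (π : Fin m → Fin m) (a b k : Fin m) (hab : a ≠ b) (h : π a = π b)
    (hk : ∀ i, (∀ c, π c ≠ i) ↔ i = k) : Function.Injective (Function.update π a k) := by
  classical
  rw [Finite.injective_iff_surjective]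
  intro i
  by_cases hi : i = k
  · exact ⟨a, by rw [Function.update_self, hi]⟩
  · have h1 : ¬ ∀ c, π c ≠ i := fun h' => hi ((hk i).1 h')
    push Not at h1
    obtain ⟨c, hc⟩ := h1
    by_cases hca : c = a
    · refine ⟨b, ?_⟩
      rw [Function.update_of_ne hab.symm, ← h, ← hca, hc]
    · exact ⟨c, by rw [Function.update_of_ne hca, hc]⟩

theorem coeff_mm_one {m : ℕ} (π : Fin m → Fin m) (Y : Fin m → Fin m → ℂ) (a b k : Fin m)
    (hab : a ≠ b) (h : π a = π b) (hk : ∀ i, (∀ c, π c ≠ i) ↔ i = k) :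
    (mm π Y).coeff 1 = (Y a k - Y b k) *
      (Matrix.of fun c : Fin m => bs (Function.update π a k c)).det := by
  classical
  rw [mm, coeff_one' (fun c => bs (π c)) Y a b hab (by rw [h])]
  set π' := Function.update π a k with hπ'
  have hinj := update_inj π a b k hab h hk
  let σ : Equiv.Perm (Fin m) := Equiv.ofBijective π' (Finite.injective_iff_bijective.1 hinj)
  have h1 : Matrix.of (Function.update (fun c => bs (π c)) a (Y a - Y b)) =
      (Matrix.of fun c : Fin m => bs (π' c)).updateRow a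
        (∑ c, (Y a - Y b) (π' c) • (Matrix.of fun c : Fin m => bs (π' c)) c) := by
    ext c s
    by_cases hc : c = a
    · subst hc
      rw [Matrix.updateRow_self, Matrix.of_apply, Function.update_self, Finset.sum_apply]
      have h2 : ∀ d : Fin m, ((Y c - Y b) (π' d) • (Matrix.of fun c : Fin m => bs (π' c)) d) s =
          if σ d = s then (Y c - Y b) s else 0 := by
        intro d
        rw [Pi.smul_apply, Matrix.of_apply, bs, smul_eq_mul]
        change _ = if π' d = s then _ else _
        by_cases hd : π' d = s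
        · rw [if_pos hd, if_pos hd, mul_one, hd]
        · rw [if_neg hd, if_neg hd, mul_zero]
      rw [sum_congr rfl fun d _ => h2 d]
      rw [Equiv.sum_comp σ (fun t => if t = s then (Y c - Y b) s else 0)]
      rw [sum_ite_eq' univ s, if_pos (mem_univ _)]
    · rw [Matrix.updateRow_ne hc, Matrix.of_apply, Matrix.of_apply, Function.update_of_ne hc, hπ',
        Function.update_of_ne hc]
  rw [h1, Matrix.det_updateRow_sum, smul_eq_mul]
  congr 1
  rw [hπ', Function.update_self]
  rfl

/-- regular: coefficient `1` -/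
theorem coeff_mm_one_ne {m : ℕ} (π : Fin m → Fin m) (Y : Fin m → Fin m → ℂ) (a b k : Fin m)
    (hab : a ≠ b) (h : π a = π b) (hk : ∀ i, (∀ c, π c ≠ i) ↔ i = k) (hY : Y a k ≠ Y b k) :
    (mm π Y).coeff 1 ≠ 0 := by
  rw [coeff_mm_one π Y a b k hab h hk]
  exact mul_ne_zero (sub_ne_zero.2 hY) (det_bs_ne _ (update_inj π a b k hab h hk))

/-- singular: `X ^ 2` -/
theorem dvd_mm_two {m : ℕ} (π : Fin m → Fin m) (Y : Fin m → Fin m → ℂ) (a b k : Fin m)
    (hab : a ≠ b) (h : π a = π b) (hk : ∀ i, (∀ c, π c ≠ i) ↔ i = k) (hY : Y a k = Y b k) :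
    X ^ 2 ∣ mm π Y := by
  rw [X_pow_dvd_iff]
  intro j hj
  interval_cases j
  · have h1 := dvd_mm π Y
    have h2 : (univ.filter fun i => ∀ c, π c ≠ i).card = 1 := by
      rw [card_eq_one]
      refine ⟨k, ?_⟩
      ext i
      rw [mem_filter, mem_singleton]
      exact ⟨fun h' => (hk i).1 h'.2, fun h' => ⟨mem_univ _, (hk i).2 h'⟩⟩
    rw [h2, X_pow_dvd_iff] at h1
    exact h1 0 (by norm_num)
  · rw [coeff_mm_one π Y a b k hab h hk, hY, sub_self, zero_mul]

end Vale.Agent.P181.MD.H187
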