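import Vale.Agent.P181.MD.Spec
import Vale.Agent.P181.MD.H187.Bas

/-!
# P181, MD: the orders of the minors
-/

set_option autoImplicit false

namespace Vale.Agent.P181.MD.H187

open Finset Vale.Agent.P181.TS

/-- the second part of the point -/
noncomputable def yy {b m : ℕ} (cl : Fin b → Fin m) (y : Fin b → Fin m → ℕ) (e : Fin m → Fin b)
    (a s : Fin m) : ℂ := if cl (e a) = s then 0 else (y (e a) s : ℂ)

lemma mn_mm {b m : ℕ} (cl : Fin b → Fin m) (y : Fin b → Fin m → ℕ) (e : Fin m → Fin b) :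
    mn cl y e = mm (fun a => cl (e a)) (yy cl y e) := by
  rw [mn, mm]
  congr 1
  ext1 a s
  rw [Matrix.of_apply, Matrix.of_apply, pm, bs, yy]
  by_cases h : cl (e a) = s
  · rw [if_pos h, if_pos h, if_pos h, map_one, map_zero, mul_zero, add_zero]
  · rw [if_neg h, if_neg h, if_neg h, map_zero, zero_add, mul_comm]

lemma miss_eq {b m : ℕ} (cl : Fin b → Fin m) (e : Fin m → Fin b) :
    miss cl (univ.image e) = univ.filter fun i => ∀ a, cl (e a) ≠ i := by
  ext i
  rw [miss, mem_filter, mem_filter]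
  simp

/-- **[MD-ORD1]** -/
theorem ord1 : Ord1 := by
  intro b m cl y e _
  rw [mn_mm, miss_eq]
  exact dvd_mm _ _

/-- **[MD-ORD3]** -/
theorem ord3 : Ord3 := by
  classical
  intro b m cl y e he hR
  rw [mn_mm]
  rcases hR with h | ⟨k, hk, u, hu, v, hv, huv, hcl, hy⟩
  · rw [h, card_empty]
    apply coeff_mm_zero
    rw [Finite.injective_iff_surjective]
    intro i
    rw [miss_eq] at h
    by_contra hcon
    push Not at hcon
    have : i ∈ univ.filter fun i => ∀ a, cl (e a) ≠ i := mem_filter.2 ⟨mem_univ _, hcon⟩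
    rw [h] at this
    exact notMem_empty _ this
  · rw [hk, card_singleton]
    rw [mem_image] at hu hv
    obtain ⟨a, -, rfl⟩ := hu
    obtain ⟨b', -, rfl⟩ := hv
    have hkk : ∀ i, (∀ c, cl (e c) ≠ i) ↔ i = k := by
      intro i
      rw [miss_eq] at hk
      rw [← mem_singleton, ← hk, mem_filter]
      exact ⟨fun h => ⟨mem_univ _, h⟩, fun h => h.2⟩
    have hk1 := (hkk k).2 rfl
    refine coeff_mm_one_ne (fun a => cl (e a)) (yy cl y e) a b' k (fun h => huv (by rw [h])) hcl
      hkk ?_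
    rw [yy, yy, if_neg (hk1 a), if_neg (hk1 b')]
    exact_mod_cast hy

/-- **[MD-ORD2]** -/
theorem ord2 : Ord2 := by
  classical
  intro b m cl y e he hS
  obtain ⟨u, hu, v, hv, huv, hcl, hy⟩ := hS
  rw [mem_image] at hu hv
  obtain ⟨a1, -, rfl⟩ := hu
  obtain ⟨a2, -, rfl⟩ := hv
  set K := miss cl (univ.image e) with hK
  have hKm : ∀ s ∈ K, ∀ a, cl (e a) ≠ s := by
    intro s hs
    rw [hK, miss_eq, mem_filter] at hs
    exact hs.2
  have h1 : mn cl y e = Polynomial.X ^ K.card * (Matrix.of fun a s : Fin m =>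
      if s ∈ K then Polynomial.C (y (e a) s : ℂ) else pm cl y (e a) s).det := by
    have h2 : (∏ s : Fin m, (if s ∈ K then (Polynomial.X : Polynomial ℂ) else 1)) =
        Polynomial.X ^ K.card := by
      rw [prod_ite_mem, univ_inter, prod_const]
    rw [mn, ← h2, ← Matrix.det_mul_row]
    congr 1
    ext1 a s
    rw [Matrix.of_apply, Matrix.of_apply, Matrix.of_apply]
    by_cases hs : s ∈ K
    · rw [if_pos hs, if_pos hs, pm, if_neg (hKm s hs a), mul_comm]
    · rw [if_neg hs, if_neg hs, one_mul]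
  rw [h1, pow_succ]
  apply mul_dvd_mul_left
  rw [Polynomial.X_dvd_iff, Polynomial.coeff_zero_eq_eval_zero, ← Polynomial.coe_evalRingHom,
    RingHom.map_det]
  have hne : a1 ≠ a2 := fun h => huv (by rw [h])
  apply Matrix.det_zero_of_row_eq hne
  ext s
  rw [RingHom.mapMatrix_apply, Matrix.map_apply, Matrix.map_apply, Matrix.of_apply,
    Matrix.of_apply]
  by_cases hs : s ∈ K
  · rw [if_pos hs, if_pos hs, hy s hs]
  · rw [if_neg hs, if_neg hs, pm, pm, ← hcl]
    by_cases hc : cl (e a1) = s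
    · rw [if_pos hc, if_pos hc]
    · rw [if_neg hc, if_neg hc]
      simp

end Vale.Agent.P181.MD.H187
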