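import Vale.Agent.P181.H19.Gt

/-!
# P181, MD: the numbers of the lower bound (marker columns of fixed length `m`)
-/

set_option autoImplicit false

namespace Vale.Agent.P181.MD.H187

open Finset Vale.Agent.P181.H463 Vale.Agent.P181.H19

/-- **(1)** removing `x` columns of length `m` -/
theorem gt_shift {n N m x : ℕ} (hn : n ≤ N) (hm : m ≤ n) (lam η : Fin n → ℕ)
    (hlam : Antitone lam) (hη : Antitone η) (h1 : ∀ i : Fin n, (i : ℕ) < m → lam i = η i + x)
    (h2 : ∀ i : Fin n, m ≤ (i : ℕ) → lam i = η i)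
    (h3 : ∀ i j : Fin n, (i : ℕ) < m → m ≤ (j : ℕ) → lam j + 2 * x ≤ lam i)
    (h4 : ∀ i : Fin n, (i : ℕ) < m → 2 * x ≤ lam i) :
    gt n N lam ≤ 2 ^ (m * N) * gt n N η := by
  classical
  have hc : (0 : ℤ) < ∏ i : Fin N, ((i : ℕ).factorial : ℤ) :=
    prod_pos fun i _ => by exact_mod_cast Nat.factorial_pos _
  -- padded rows
  have hp1 : ∀ r : ℕ, r < m → pad lam r = pad η r + x ∧ 2 * x ≤ pad lam r := by
    intro r hr
    have hrn : r < n := by omega
    unfold pad
    rw [dif_pos hrn, dif_pos hrn]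
    exact ⟨h1 ⟨r, hrn⟩ hr, h4 ⟨r, hrn⟩ hr⟩
  have hp2 : ∀ r : ℕ, m ≤ r → pad lam r = pad η r := by
    intro r hr
    unfold pad
    by_cases hrn : r < n
    · rw [dif_pos hrn, dif_pos hrn]
      exact h2 ⟨r, hrn⟩ hr
    · rw [dif_neg hrn, dif_neg hrn]
  have hp3 : ∀ r s : ℕ, r < m → m ≤ s → pad lam s + 2 * x ≤ pad lam r := by
    intro r s hr hs
    have hrn : r < n := by omega
    by_cases hsn : s < n
    · unfold pad
      rw [dif_pos hrn, dif_pos hsn]
      exact h3 ⟨r, hrn⟩ ⟨s, hsn⟩ hr hs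
    · have h5 := (hp1 r hr).2
      have h6 : pad lam s = 0 := by
        unfold pad
        rw [dif_neg hsn]
      rw [h6, zero_add]
      exact h5
  let c : Fin N → ℤ := fun j => if N - 1 - (j : ℕ) < m then 2 else 1
  have hc1 : ∀ j, 1 ≤ c j := by
    intro j
    simp only [c]
    split_ifs <;> norm_num
  have hd : ∀ i j : Fin N, i < j → (0 : ℤ) ≤ (seqx η N j : ℤ) - seqx η N i := by
    intro i j hij
    have := seqx_mono hη N hij.le
    omega
  have hd' : ∀ i j : Fin N, i < j → (0 : ℤ) ≤ (seqx lam N j : ℤ) - seqx lam N i := by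
    intro i j hij
    have := seqx_mono hlam N hij.le
    omega
  have hle : ∀ i j : Fin N, i < j → (seqx lam N j : ℤ) - seqx lam N i ≤
      c j * ((seqx η N j : ℤ) - seqx η N i) := by
    intro i j hij
    have hij' : (i : ℕ) < j := hij
    have hj := j.2
    have h0 := hd i j hij
    unfold seqx at h0 ⊢
    simp only [c]
    by_cases hjm : N - 1 - (j : ℕ) < m
    · rw [if_pos hjm]
      by_cases him : N - 1 - (i : ℕ) < m
      · have h5 := (hp1 _ hjm).1
        have h6 := (hp1 _ him).1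
        rw [h5, h6]
        push_cast
        push_cast at h0
        linarith
      · have h5 := (hp1 _ hjm).1
        have h6 := hp2 _ (not_lt.1 him)
        have h7 := hp3 _ _ hjm (not_lt.1 him)
        rw [h5, h6] at h7
        rw [h5, h6]
        push_cast
        have h8 : (pad η (N - 1 - (i : ℕ)) : ℤ) + 2 * x ≤ pad η (N - 1 - (j : ℕ)) + x := by
          exact_mod_cast h7
        have h9 : (i : ℤ) < j := by exact_mod_cast hij'
        linarith
    · rw [if_neg hjm, one_mul]
      have him : m ≤ N - 1 - (i : ℕ) := by omega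
      rw [hp2 _ (not_lt.1 hjm), hp2 _ him]
  have hmain : ∏ i : Fin N, ∏ j ∈ Ioi i, ((seqx lam N j : ℤ) - seqx lam N i) ≤
      2 ^ (m * N) * ∏ i : Fin N, ∏ j ∈ Ioi i, ((seqx η N j : ℤ) - seqx η N i) := by
    have s1 : ∏ i : Fin N, ∏ j ∈ Ioi i, ((seqx lam N j : ℤ) - seqx lam N i) ≤
        ∏ i : Fin N, ∏ j ∈ Ioi i, (c j * ((seqx η N j : ℤ) - seqx η N i)) := by
      apply prod_le_prod
      · intro i _
        exact prod_nonneg fun j hj => hd' i j (mem_Ioi.1 hj)
      · intro i _
        apply prod_le_prod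
        · intro j hj
          exact hd' i j (mem_Ioi.1 hj)
        · intro j hj
          exact hle i j (mem_Ioi.1 hj)
    have s2 : ∏ i : Fin N, ∏ j ∈ Ioi i, (c j * ((seqx η N j : ℤ) - seqx η N i)) =
        (∏ i : Fin N, ∏ j ∈ Ioi i, c j) *
          ∏ i : Fin N, ∏ j ∈ Ioi i, ((seqx η N j : ℤ) - seqx η N i) := by
      rw [← prod_mul_distrib]
      exact prod_congr rfl fun i _ => prod_mul_distrib
    have s3 : ∏ i : Fin N, ∏ j ∈ Ioi i, c j ≤ 2 ^ (m * N) := by
      have s4 : ∏ i : Fin N, ∏ j ∈ Ioi i, c j ≤ ∏ _i : Fin N, (2 : ℤ) ^ m := by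
        apply prod_le_prod
        · intro i _
          exact prod_nonneg fun j _ => by have := hc1 j; omega
        · intro i _
          have s5 : ∏ j ∈ Ioi i, c j ≤ ∏ j : Fin N, c j := by
            rw [← prod_sdiff (subset_univ (Ioi i))]
            have s6 : (1 : ℤ) ≤ ∏ j ∈ univ \ Ioi i, c j := by
              have h := prod_le_prod (s := univ \ Ioi i) (f := fun _ => (1 : ℤ)) (g := c)
                (fun _ _ => by norm_num) (fun j _ => hc1 j)
              simpa using h
            have s7 : (0 : ℤ) ≤ ∏ j ∈ Ioi i, c j :=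
              prod_nonneg fun j _ => by have := hc1 j; omega
            nlinarith
          refine s5.trans ?_
          simp only [c]
          rw [prod_ite, prod_const, prod_const_one, mul_one]
          apply pow_le_pow_right₀ (by norm_num)
          have s8 : (univ.filter fun j : Fin N => N - 1 - (j : ℕ) < m).card ≤
              (range m).card := by
            apply card_le_card_of_injOn (fun j : Fin N => N - 1 - (j : ℕ))
            · intro j hj
              rw [mem_coe, mem_filter] at hj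
              rw [mem_coe, mem_range]
              exact hj.2
            · intro j _ j' _ h
              have h5 : N - 1 - (j : ℕ) = N - 1 - (j' : ℕ) := h
              have := j.2
              have := j'.2
              exact Fin.ext (by omega)
          rwa [card_range] at s8
      refine s4.trans ?_
      rw [prod_const, card_univ, Fintype.card_fin, ← pow_mul]
    rw [s2] at s1
    refine s1.trans (mul_le_mul_of_nonneg_right s3 ?_)
    exact prod_nonneg fun i _ => prod_nonneg fun j hj => hd i j (mem_Ioi.1 hj)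
  rw [← gt_prod hn lam hlam, ← gt_prod hn η hη, ← mul_assoc] at hmain
  have h5 := le_of_mul_le_mul_right hmain hc
  exact_mod_cast h5

/-- **(2)** growth in the number of letters -/
theorem gt_grow {n a m B : ℕ} {y : ℝ} (hn : n ≤ a) (ha : 0 < a) (η : Fin n → ℕ)
    (hη : Antitone η) (hm : m ≤ n) (hy0 : 0 ≤ y) (hy : ∀ i : Fin n, (i : ℕ) < m → y ≤ η i)
    (b : ℕ) (hab : a ≤ b) (hbB : b ≤ B) :
    (gt n a η : ℝ) * (1 + y / B) ^ (m * (b - a)) ≤ gt n b η := by
  induction b, hab using Nat.le_induction with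
  | base => simp
  | succ b hab ih =>
    have ih := ih (by omega)
    have hB : (0 : ℝ) < B := by
      have : 0 < B := by omega
      exact_mod_cast this
    have hnb : n ≤ b := by omega
    have h1 := gt_succ_mul hnb η hη
    have h2 : (gt n (b + 1) η : ℝ) * ∏ k : Fin n, ((b - (k : ℕ) : ℕ) : ℝ) =
        gt n b η * ∏ k : Fin n, ((η k : ℝ) + ((b - (k : ℕ) : ℕ) : ℝ)) := by
      exact_mod_cast h1
    have hpos : ∀ k : Fin n, (0 : ℝ) < ((b - (k : ℕ) : ℕ) : ℝ) := by
      intro k
      have := k.2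
      have h3 : 0 < b - (k : ℕ) := by omega
      exact_mod_cast h3
    have h4 : (∏ k : Fin n, ((b - (k : ℕ) : ℕ) : ℝ)) * (1 + y / B) ^ m ≤
        ∏ k : Fin n, ((η k : ℝ) + ((b - (k : ℕ) : ℕ) : ℝ)) := by
      have h5 : (1 + y / B) ^ m = ∏ k : Fin n, (if (k : ℕ) < m then 1 + y / B else 1) := by
        rw [prod_ite, prod_const, prod_const_one, mul_one, Fin.card_filter_val_lt,
          min_eq_right hm]
      rw [h5, ← prod_mul_distrib]
      apply prod_le_prod
      · intro k _
        have h6 := hpos k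
        split_ifs <;> positivity
      · intro k _
        have h6 := hpos k
        have h7 : (0 : ℝ) ≤ η k := Nat.cast_nonneg _
        split_ifs with hk
        · have h8 := hy k hk
          have h9 : ((b - (k : ℕ) : ℕ) : ℝ) ≤ B := by
            have : b - (k : ℕ) ≤ B := by omega
            exact_mod_cast this
          have h10 : ((b - (k : ℕ) : ℕ) : ℝ) * (y / B) ≤ y := by
            rw [mul_div_assoc', div_le_iff₀ hB]
            nlinarith
          nlinarith
        · linarith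
    have h6 : (0 : ℝ) < ∏ k : Fin n, ((b - (k : ℕ) : ℕ) : ℝ) := prod_pos fun k _ => hpos k
    have h7 : (gt n b η : ℝ) * (1 + y / B) ^ m ≤ gt n (b + 1) η := by
      have h8 : (0 : ℝ) ≤ gt n b η := Nat.cast_nonneg _
      have h9 : ((gt n b η : ℝ) * (1 + y / B) ^ m) * ∏ k : Fin n, ((b - (k : ℕ) : ℕ) : ℝ) ≤
          gt n (b + 1) η * ∏ k : Fin n, ((b - (k : ℕ) : ℕ) : ℝ) := by
        rw [h2]
        have h10 := mul_le_mul_of_nonneg_left h4 h8
        nlinarith
      exact le_of_mul_le_mul_right h9 h6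
    have h8 : m * (b + 1 - a) = m * (b - a) + m := by
      rw [Nat.succ_sub hab, Nat.mul_succ]
    rw [h8, pow_add, ← mul_assoc]
    have h9 : (0 : ℝ) ≤ (1 + y / B) ^ m := by positivity
    exact (mul_le_mul_of_nonneg_right ih h9).trans h7

/-- **(3)** the numbers -/
theorem num {a b m : ℕ} (ha : 1 ≤ a) (hab : 5 * a ≤ b) (hm : 3 ≤ m) (hL : 30 ≤ Real.log b) :
    (2 : ℝ) ^ (m * a) * (Real.exp (2 * b) * ((b : ℝ) * (a + 1)) ^ b) ≤
      ((b : ℝ) ^ ((7 : ℝ) / 8)) ^ (m * (b - a)) := by
  have hb : 5 ≤ b := by omega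
  have hbR : (0 : ℝ) < b := by
    have : 0 < b := by omega
    exact_mod_cast this
  have hba : a ≤ b := by omega
  set L := Real.log b with hLdef
  have haR : (1 : ℝ) ≤ a := by exact_mod_cast ha
  have habR : 5 * (a : ℝ) ≤ b := by exact_mod_cast hab
  have hmR : (3 : ℝ) ≤ m := by exact_mod_cast hm
  have e1 : (2 : ℝ) ^ (m * a) ≤ Real.exp ((0.7 : ℝ) * (m * a)) := by
    have h1 : (2 : ℝ) ≤ Real.exp 0.7 := by
      have h2 := Real.log_two_lt_d9
      have h3 : Real.log 2 ≤ 0.7 := by linarith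
      rw [← Real.exp_log (show (0 : ℝ) < 2 by norm_num)]
      exact Real.exp_le_exp.2 h3
    calc (2 : ℝ) ^ (m * a) ≤ (Real.exp 0.7) ^ (m * a) :=
          pow_le_pow_left₀ (by norm_num) h1 _
      _ = Real.exp ((0.7 : ℝ) * (m * a)) := by
          rw [← Real.exp_nat_mul]
          congr 1
          push_cast
          ring
  have e2 : ((b : ℝ) * (a + 1)) ^ b ≤ Real.exp (2 * L * b) := by
    have h1 : (b : ℝ) * (a + 1) ≤ Real.exp (2 * L) := by
      have h2 : Real.exp (2 * L) = b * b := by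
        rw [two_mul, Real.exp_add, hLdef, Real.exp_log hbR]
      rw [h2]
      have h3 : (a : ℝ) + 1 ≤ b := by linarith
      exact mul_le_mul_of_nonneg_left h3 hbR.le
    calc ((b : ℝ) * (a + 1)) ^ b ≤ (Real.exp (2 * L)) ^ b :=
          pow_le_pow_left₀ (by positivity) h1 _
      _ = Real.exp (2 * L * b) := by
          rw [← Real.exp_nat_mul]
          congr 1
          ring
  have e3 : ((b : ℝ) ^ ((7 : ℝ) / 8)) ^ (m * (b - a)) =
      Real.exp ((7 / 8 * L) * (m * ((b : ℝ) - a))) := by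
    rw [Real.rpow_def_of_pos hbR, ← Real.exp_nat_mul]
    congr 1
    push_cast [Nat.cast_sub hba]
    ring
  rw [e3]
  calc (2 : ℝ) ^ (m * a) * (Real.exp (2 * b) * ((b : ℝ) * (a + 1)) ^ b)
      ≤ Real.exp ((0.7 : ℝ) * (m * a)) * (Real.exp (2 * b) * Real.exp (2 * L * b)) := by
        apply mul_le_mul e1 (mul_le_mul_of_nonneg_left e2 (Real.exp_pos _).le)
          (by positivity) (Real.exp_pos _).le
    _ = Real.exp ((0.7 : ℝ) * (m * a) + (2 * b + 2 * L * b)) := by
        rw [Real.exp_add, Real.exp_add]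
    _ ≤ _ := by
        apply Real.exp_le_exp.2
        have h1 : (0.7 : ℝ) * (m * a) ≤ 0.14 * (m * b) := by nlinarith
        have h2 : (7 / 8 * L) * (m * (4 / 5 * (b : ℝ))) ≤ (7 / 8 * L) * (m * ((b : ℝ) - a)) := by
          apply mul_le_mul_of_nonneg_left _ (by linarith)
          apply mul_le_mul_of_nonneg_left _ (by linarith)
          linarith
        have h3 : 0.14 * (m * (b : ℝ)) + (2 * b + 2 * L * b) ≤
            (7 / 8 * L) * (m * (4 / 5 * (b : ℝ))) := by
          have h4 : 0.14 * (m : ℝ) + (2 + 2 * L) ≤ 0.7 * L * m := by nlinarith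
          have h5 := mul_le_mul_of_nonneg_right h4 hbR.le
          nlinarith
        linarith

/-- the factor of the orbit inequality -/
lemma choose_fact (M b : ℕ) (hb : 0 < b) :
    (M + b - 1).choose (b - 1) * b.factorial ≤ (M + b) ^ b := by
  obtain ⟨c, rfl⟩ : ∃ c, b = c + 1 := ⟨b - 1, by omega⟩
  have h1 : (M + c).choose c * c.factorial ≤ (M + c) ^ c := by
    rw [mul_comm, ← Nat.descFactorial_eq_factorial_mul_choose]
    exact Nat.descFactorial_le_pow _ _
  have h2 : M + (c + 1) - 1 = M + c := by omega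
  rw [h2, Nat.add_sub_cancel, Nat.factorial_succ, pow_succ]
  calc (M + c).choose c * ((c + 1) * c.factorial)
      = ((M + c).choose c * c.factorial) * (c + 1) := by ring
    _ ≤ (M + c) ^ c * (M + (c + 1)) := Nat.mul_le_mul h1 (by omega)
    _ ≤ (M + (c + 1)) ^ c * (M + (c + 1)) :=
        Nat.mul_le_mul_right _ (Nat.pow_le_pow_left (by omega) c)

/-- **[MD-LB]** the lower bound from the orbit inequality -/
theorem lb {n k a b m x T : ℕ} (ha : 1 ≤ a) (hn : n ≤ a) (hk : k ≤ a) (hab : 5 * a ≤ b)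
    (hm3 : 3 ≤ m) (hm : m ≤ n) (hL : 30 ≤ Real.log b) (lam η : Fin n → ℕ)
    (hlam : Antitone lam) (hη : Antitone η)
    (h1 : ∀ i : Fin n, (i : ℕ) < m → lam i = η i + x)
    (h2 : ∀ i : Fin n, m ≤ (i : ℕ) → lam i = η i)
    (h3 : ∀ i j : Fin n, (i : ℕ) < m → m ≤ (j : ℕ) → lam j + 2 * x ≤ lam i)
    (h4 : ∀ i : Fin n, (i : ℕ) < m → 2 * x ≤ lam i)
    (hy : ∀ i : Fin n, (i : ℕ) < m → (b : ℝ) ^ ((15 : ℝ) / 8) ≤ η i)
    (hsum : ∑ i, lam i = k * b)
    (hT : gt n b η ≤ ((∑ i, η i) + b - 1).choose (b - 1) * (b.factorial * T)) :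
    (gt n a lam : ℝ) * Real.exp (2 * b) ≤ T := by
  have hb : 0 < b := by omega
  have hbR : (0 : ℝ) < b := by exact_mod_cast hb
  have hba : a ≤ b := by omega
  have hM : ∑ i, η i ≤ a * b := by
    calc ∑ i, η i ≤ ∑ i, lam i := by
          apply sum_le_sum
          intro i _
          by_cases hi : (i : ℕ) < m
          · rw [h1 i hi]; omega
          · rw [h2 i (not_lt.1 hi)]
      _ = k * b := hsum
      _ ≤ a * b := Nat.mul_le_mul_right b hk
  have hT' : (gt n b η : ℝ) ≤ ((b : ℝ) * (a + 1)) ^ b * T := by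
    have h5 := choose_fact (∑ i, η i) b hb
    have h6 : gt n b η ≤ (b * (a + 1)) ^ b * T := by
      calc gt n b η ≤ (((∑ i, η i) + b - 1).choose (b - 1) * b.factorial) * T := by
            rw [mul_assoc]; exact hT
        _ ≤ ((∑ i, η i) + b) ^ b * T := Nat.mul_le_mul_right T h5
        _ ≤ (b * (a + 1)) ^ b * T := by
            apply Nat.mul_le_mul_right
            apply Nat.pow_le_pow_left
            nlinarith
    exact_mod_cast h6
  have hs : (gt n a lam : ℝ) ≤ 2 ^ (m * a) * gt n a η := by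
    exact_mod_cast gt_shift hn hm lam η hlam hη h1 h2 h3 h4
  have hg := gt_grow (y := (b : ℝ) ^ ((15 : ℝ) / 8)) hn ha η hη hm (by positivity) hy b hba le_rfl
  have hq : (b : ℝ) ^ ((7 : ℝ) / 8) ≤ 1 + (b : ℝ) ^ ((15 : ℝ) / 8) / b := by
    have h5 : (b : ℝ) ^ ((15 : ℝ) / 8) / b = (b : ℝ) ^ ((7 : ℝ) / 8) := by
      rw [div_eq_iff hbR.ne']
      nth_rewrite 3 [← Real.rpow_one (b : ℝ)]
      rw [← Real.rpow_add hbR]
      norm_num
    rw [h5]
    linarith
  have hq2 : ((b : ℝ) ^ ((7 : ℝ) / 8)) ^ (m * (b - a)) ≤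
      (1 + (b : ℝ) ^ ((15 : ℝ) / 8) / b) ^ (m * (b - a)) :=
    pow_le_pow_left₀ (by positivity) hq _
  have hnum := num ha hab hm3 hL
  set Q : ℝ := (1 + (b : ℝ) ^ ((15 : ℝ) / 8) / b) ^ (m * (b - a)) with hQ
  have hQ0 : 0 < Q := by positivity
  have hGη : (0 : ℝ) ≤ gt n a η := Nat.cast_nonneg _
  have hTn : (0 : ℝ) ≤ T := Nat.cast_nonneg _
  have hfin : ((gt n a lam : ℝ) * Real.exp (2 * b)) * Q ≤ T * Q := by
    calc ((gt n a lam : ℝ) * Real.exp (2 * b)) * Q
        ≤ ((2 ^ (m * a) * gt n a η) * Real.exp (2 * b)) * Q := by gcongr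
      _ = (2 ^ (m * a) * Real.exp (2 * b)) * (gt n a η * Q) := by ring
      _ ≤ (2 ^ (m * a) * Real.exp (2 * b)) * gt n b η := by gcongr
      _ ≤ (2 ^ (m * a) * Real.exp (2 * b)) * (((b : ℝ) * (a + 1)) ^ b * T) := by gcongr
      _ = (2 ^ (m * a) * (Real.exp (2 * b) * ((b : ℝ) * (a + 1)) ^ b)) * T := by ring
      _ ≤ Q * T := by
          apply mul_le_mul_of_nonneg_right (hnum.trans hq2) hTn
      _ = T * Q := by ring
  exact le_of_mul_le_mul_right hfin hQ0

end Vale.Agent.P181.MD.H187
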