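import Vale.Agent.P181.MD.Spec
import Vale.Agent.P181.MD.H187.Lb

/-!
# P181, MD: [REM]
-/

set_option autoImplicit false

namespace Vale.Agent.P181.MD.H187

open Finset Vale.Agent.P181.H463

/-- **[MD-REM]** -/
theorem rem : RemStmt := by
  intro n a m N lam η hn hm hlam hη h hex
  have hex0 : 0 ≤ T4.ex lam m := Nat.zero_le _
  refine gt_shift hn hm lam η hlam hη (x := N) ?_ ?_ ?_ ?_
  · intro i hi
    have := h i
    rw [if_pos hi] at this
    omega
  · intro i hi
    have := h i
    rw [if_neg (by omega)] at this
    omega
  · intro i j hi hj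
    have h1 := hex i hi
    have h2 : lam j ≤ T4.ex lam m := by
      have hmn : m < n := lt_of_le_of_lt hj j.2
      unfold T4.ex
      rw [dif_pos hmn]
      exact hlam hj
    omega
  · intro i hi
    have h1 := hex i hi
    omega

end Vale.Agent.P181.MD.H187
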