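import Mathlib

/-!
# P181: minors of points `E u + X Y u` (multilinear expansion)
-/

set_option autoImplicit false

namespace Vale.Agent.P181.MD.H187

open Finset Polynomial

/-- the rows of `S` from `Y`, the other ones from `E` -/
noncomputable def dS {m : ℕ} (E Y : Fin m → Fin m → ℂ) (S : Finset (Fin m)) : ℂ :=
  Matrix.det (Matrix.of fun a s => if a ∈ S then Y a s else E a s)

/-- **the expansion** -/
theorem det_expand {m : ℕ} (E Y : Fin m → Fin m → ℂ) :
    (Matrix.of fun a s : Fin m => (C (E a s) + X * C (Y a s) : ℂ[X])).det =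
      ∑ S : Finset (Fin m), C (dS E Y S) * X ^ S.card := by
  classical
  have h := (Matrix.detRowAlternating (n := Fin m) (R := ℂ[X])).toMultilinearMap.map_add_univ
    (fun a s => X * C (Y a s)) (fun a s => C (E a s))
  have h1 : (Matrix.of fun a s : Fin m => (C (E a s) + X * C (Y a s) : ℂ[X])).det =
      (Matrix.detRowAlternating (n := Fin m) (R := ℂ[X])).toMultilinearMap
        ((fun a s => X * C (Y a s)) + fun a s => C (E a s)) := by
    change _ = Matrix.det _
    congr 1
    ext1 a s
    rw [Matrix.of_apply, add_comm]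
    rfl
  rw [h1, h]
  refine sum_congr rfl fun S _ => ?_
  change Matrix.det _ = _
  have h2 : (S.piecewise (fun a s => X * C (Y a s)) (fun a s => C (E a s)) :
      Fin m → Fin m → ℂ[X]) = Matrix.of fun a s => (if a ∈ S then X else 1) *
        (C.mapMatrix (Matrix.of fun a s => if a ∈ S then Y a s else E a s)) a s := by
    ext1 a
    ext1 s
    rw [Matrix.of_apply, RingHom.mapMatrix_apply, Matrix.map_apply, Matrix.of_apply,
      Finset.piecewise]
    by_cases ha : a ∈ S
    · rw [if_pos ha, if_pos ha, if_pos ha]
    · rw [if_neg ha, if_neg ha, if_neg ha, one_mul]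
  rw [h2, Matrix.det_mul_column, ← RingHom.map_det, prod_ite_mem, univ_inter, prod_const, mul_comm]
  rfl

theorem coeff_det {m : ℕ} (E Y : Fin m → Fin m → ℂ) (j : ℕ) :
    ((Matrix.of fun a s : Fin m => (C (E a s) + X * C (Y a s) : ℂ[X])).det).coeff j =
      ∑ S : Finset (Fin m), if S.card = j then dS E Y S else 0 := by
  rw [det_expand, finsetSum_coeff]
  refine sum_congr rfl fun S _ => ?_
  rw [coeff_C_mul_X_pow]
  by_cases h : S.card = j
  · rw [if_pos h, if_pos h.symm]
  · rw [if_neg h, if_neg (fun h' => h h'.symm)]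

lemma dS_zero {m : ℕ} (E Y : Fin m → Fin m → ℂ) (S : Finset (Fin m)) (a b : Fin m) (hab : a ≠ b)
    (ha : a ∉ S) (hb : b ∉ S) (h : E a = E b) : dS E Y S = 0 := by
  rw [dS]
  apply Matrix.det_zero_of_row_eq hab
  ext s
  rw [Matrix.of_apply, Matrix.of_apply, if_neg ha, if_neg hb, h]

/-- **order**: letters of `k` classes -/
theorem dvd_det {m : ℕ} {κ : Type*} [DecidableEq κ] (E Y : Fin m → Fin m → ℂ) (cl : Fin m → κ)
    (hE : ∀ a b, cl a = cl b → E a = E b) :
    (X : ℂ[X]) ^ (m - (univ.image cl).card) ∣
      (Matrix.of fun a s : Fin m => (C (E a s) + X * C (Y a s) : ℂ[X])).det := by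
  rw [X_pow_dvd_iff]
  intro j hj
  rw [coeff_det]
  refine sum_eq_zero fun S _ => ?_
  by_cases hS : S.card = j
  · rw [if_pos hS]
    have h1 : (univ.image cl).card < (Sᶜ : Finset (Fin m)).card := by
      rw [card_compl, Fintype.card_fin]
      omega
    obtain ⟨a, ha, b, hb, hab, h⟩ := exists_ne_map_eq_of_card_lt_of_maps_to (f := cl) h1
      (fun a _ => mem_image_of_mem cl (mem_univ a))
    exact dS_zero E Y S a b hab (mem_compl.1 ha) (mem_compl.1 hb) (hE a b h)
  · rw [if_neg hS]

/-- the constant term -/
theorem coeff_zero' {m : ℕ} (E Y : Fin m → Fin m → ℂ) :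
    ((Matrix.of fun a s : Fin m => (C (E a s) + X * C (Y a s) : ℂ[X])).det).coeff 0 =
      (Matrix.of E).det := by
  rw [coeff_det, sum_eq_single ∅]
  · rw [if_pos card_empty, dS]
    congr 1
  · intro S _ hS
    rw [if_neg]
    rw [card_eq_zero]
    exact hS
  · intro h
    exact absurd (mem_univ _) h

lemma det_update_row {m : ℕ} (E : Fin m → Fin m → ℂ) (a : Fin m) (v : Fin m → ℂ) :
    (Matrix.of (Function.update E a v)).det = (Matrix.updateRow (Matrix.of E) a v).det := rfl

/-- **the coefficient of `X`** if two rows of `E` agree -/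
theorem coeff_one' {m : ℕ} (E Y : Fin m → Fin m → ℂ) (a b : Fin m) (hab : a ≠ b)
    (h : E a = E b) :
    ((Matrix.of fun a s : Fin m => (C (E a s) + X * C (Y a s) : ℂ[X])).det).coeff 1 =
      (Matrix.of (Function.update E a (Y a - Y b))).det := by
  classical
  rw [coeff_det]
  have h1 : ∀ S : Finset (Fin m), S ≠ {a} ∧ S ≠ {b} →
      (if S.card = 1 then dS E Y S else 0) = 0 := by
    rintro S ⟨h1, h2⟩
    by_cases hS : S.card = 1
    · obtain ⟨c, rfl⟩ := card_eq_one.1 hS
      rw [if_pos hS]
      refine dS_zero E Y _ a b hab ?_ ?_ h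
      · intro h'
        exact h1 (by rw [mem_singleton.1 h'])
      · intro h'
        exact h2 (by rw [mem_singleton.1 h'])
    · rw [if_neg hS]
  have hne : ({a} : Finset (Fin m)) ≠ {b} := fun h' => hab (singleton_injective h')
  have h2 : ∑ S : Finset (Fin m), (if S.card = 1 then dS E Y S else 0) =
      ∑ S ∈ ({{a}, {b}} : Finset (Finset (Fin m))), (if S.card = 1 then dS E Y S else 0) := by
    symm
    apply sum_subset (subset_univ _)
    intro S _ hS
    rw [mem_insert, mem_singleton] at hS
    push Not at hS
    exact h1 S hS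
  rw [h2, sum_pair hne, if_pos (card_singleton a), if_pos (card_singleton b)]
  have ha : dS E Y {a} = (Matrix.of (Function.update E a (Y a))).det := by
    rw [dS]
    congr 1
    ext c s
    rw [Matrix.of_apply, Matrix.of_apply]
    by_cases hc : c = a
    · subst hc
      rw [if_pos (mem_singleton_self c), Function.update_self]
    · rw [if_neg (fun h' => hc (mem_singleton.1 h')), Function.update_of_ne hc]
  have hb : dS E Y {b} = -(Matrix.of (Function.update E a (Y b))).det := by
    have h3 : dS E Y {b} = (Matrix.of (Function.update E b (Y b))).det := by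
      rw [dS]
      congr 1
      ext c s
      rw [Matrix.of_apply, Matrix.of_apply]
      by_cases hc : c = b
      · subst hc
        rw [if_pos (mem_singleton_self c), Function.update_self]
      · rw [if_neg (fun h' => hc (mem_singleton.1 h')), Function.update_of_ne hc]
    rw [h3]
    have h4 : Matrix.of (Function.update E a (Y b)) =
        (Matrix.of (Function.update E b (Y b))).submatrix (Equiv.swap a b) id := by
      ext c s
      rw [Matrix.of_apply, Matrix.submatrix_apply, Matrix.of_apply, id]
      by_cases hc : c = a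
      · subst hc
        rw [Equiv.swap_apply_left, Function.update_self, Function.update_self]
      · rw [Function.update_of_ne hc]
        by_cases hc2 : c = b
        · subst hc2
          rw [Equiv.swap_apply_right, Function.update_of_ne hab, h]
        · rw [Equiv.swap_apply_of_ne_of_ne hc hc2, Function.update_of_ne hc2]
    rw [h4, Matrix.det_permute, Equiv.Perm.sign_swap hab]
    simp
  rw [ha, hb]
  have h5 : Y a - Y b = Y a + (-1 : ℂ) • Y b := by
    ext s
    simp [sub_eq_add_neg]
  rw [h5, det_update_row, det_update_row, det_update_row, Matrix.det_updateRow_add,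
    Matrix.det_updateRow_smul]
  ring

/-- one direction survives -/
theorem det_update_lin {m : ℕ} (E : Fin m → Fin m → ℂ) (a b : Fin m) (hab : a ≠ b) (c d : ℂ)
    (v : Fin m → ℂ) :
    (Matrix.of (Function.update E a (c • v + d • E b))).det =
      c * (Matrix.of (Function.update E a v)).det := by
  rw [det_update_row, Matrix.det_updateRow_add, Matrix.det_updateRow_smul,
    Matrix.det_updateRow_smul]
  have h1 : (Matrix.updateRow (Matrix.of E) a (E b)).det = 0 := by
    apply Matrix.det_zero_of_row_eq hab
    ext s
    rw [Matrix.updateRow_self, Matrix.updateRow_ne hab.symm]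
    rfl
  rw [h1, mul_zero, add_zero]
  rfl

/-- Vandermonde rows -/
theorem det_vand_ne {m : ℕ} (z : Fin m → ℂ) (hz : Function.Injective z) :
    (Matrix.of fun a s : Fin m => z a ^ (s : ℕ)).det ≠ 0 := by
  have h := (Matrix.det_vandermonde_ne_zero_iff (v := z)).2 hz
  exact h

end Vale.Agent.P181.MD.H187
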