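import Vale.Agent.P181.MD.Spec
import Vale.Agent.P181.MD.H187.Lb
import Vale.Agent.P181.H539.Growth

/-!
# P181, MD: [LB]
-/

set_option autoImplicit false

namespace Vale.Agent.P181.MD.H187

open Finset Vale.Agent.P181 Vale.Agent.P181.H280 Vale.Agent.P181.H463

/-- the product over the rows -/
lemma prod_rows {n m : ℕ} (hm2 : 2 ≤ m) (hmn : m ≤ n) (p q : ℝ) :
    ∏ i : Fin n, (if (i : ℕ) < 2 then p else if (i : ℕ) < m then q else 1) =
      p ^ 2 * q ^ (m - 2) := by
  rw [Fin.prod_univ_eq_prod_range (fun i => if i < 2 then p else if i < m then q else 1) n]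
  obtain ⟨m', rfl⟩ : ∃ m', m = 2 + m' := ⟨m - 2, by omega⟩
  obtain ⟨r, rfl⟩ : ∃ r, n = (2 + m') + r := ⟨n - (2 + m'), by omega⟩
  rw [prod_range_add, prod_range_add]
  have h1 : ∏ x ∈ range 2, (if x < 2 then p else if x < 2 + m' then q else 1) = p ^ 2 := by
    rw [prod_congr rfl (g := fun _ => p) fun x hx => if_pos (mem_range.1 hx), prod_const,
      card_range]
  have h2 : ∏ x ∈ range m', (if 2 + x < 2 then p else if 2 + x < 2 + m' then q else 1) =
      q ^ m' := by
    rw [prod_congr rfl (g := fun _ => q) fun x hx => by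
      rw [if_neg (by omega), if_pos (by have := mem_range.1 hx; omega)], prod_const, card_range]
  have h3 : ∏ x ∈ range r, (if 2 + m' + x < 2 then p else if 2 + m' + x < 2 + m' then q else 1) =
      1 := by
    apply prod_eq_one
    intro x _
    rw [if_neg (by omega), if_neg (by omega)]
  rw [h1, h2, h3, mul_one, Nat.add_sub_cancel_left]

/-- the numbers -/
lemma num2 {a b m : ℕ} {l N : ℝ} (ha : 1 ≤ a) (hab : 6 * a ≤ b) (hm : 3 ≤ m)
    (hB : 30 ≤ Real.log b) (h1 : 50 * Real.log b ≤ 51 * Real.log a)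
    (hl : 0 < l) (hl1 : 99 * Real.log a ≤ 50 * Real.log l)
    (hN : 0 < N) (hN1 : 8 * Real.log b ≤ 5 * Real.log N) :
    (2 : ℝ) ^ (m * a) * ((b : ℝ) * (a + 1)) ^ b ≤
      ((l / (2 * b)) ^ 2 * (N / b) ^ (m - 2)) ^ (b - a) := by
  have hb : 6 ≤ b := by omega
  have hbR : (0 : ℝ) < b := by
    have : 0 < b := by omega
    exact_mod_cast this
  have hba : a ≤ b := by omega
  have haR : (1 : ℝ) ≤ a := by exact_mod_cast ha
  have habR : 6 * (a : ℝ) ≤ b := by exact_mod_cast hab
  have hmR : (3 : ℝ) ≤ m := by exact_mod_cast hm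
  set A := Real.log a with hA
  set B := Real.log b with hBd
  have hlog2 := Real.log_two_lt_d9
  have hlog2' := Real.log_two_gt_d9
  have e1 : (2 : ℝ) ^ (m * a) = Real.exp (Real.log 2 * (m * a)) := by
    rw [mul_comm (Real.log 2), ← Nat.cast_mul, Real.exp_nat_mul,
      Real.exp_log (by norm_num)]
  have e2 : ((b : ℝ) * (a + 1)) ^ b ≤ Real.exp (2 * B * b) := by
    have h1 : (b : ℝ) * (a + 1) ≤ Real.exp (2 * B) := by
      have h2 : Real.exp (2 * B) = b * b := by
        rw [two_mul, Real.exp_add, hBd, Real.exp_log hbR]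
      rw [h2]
      have h3 : (a : ℝ) + 1 ≤ b := by linarith
      exact mul_le_mul_of_nonneg_left h3 hbR.le
    calc ((b : ℝ) * (a + 1)) ^ b ≤ (Real.exp (2 * B)) ^ b :=
          pow_le_pow_left₀ (by positivity) h1 _
      _ = Real.exp (2 * B * b) := by
          rw [← Real.exp_nat_mul]
          congr 1
          ring
  have e3 : l / (2 * b) = Real.exp (Real.log l - Real.log 2 - B) := by
    rw [Real.exp_sub, Real.exp_sub, Real.exp_log hl, Real.exp_log (by norm_num), hBd,
      Real.exp_log hbR]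
    field_simp
  have e4 : N / b = Real.exp (Real.log N - B) := by
    rw [Real.exp_sub, Real.exp_log hN, hBd, Real.exp_log hbR]
  have e5 : ((l / (2 * b)) ^ 2 * (N / b) ^ (m - 2)) ^ (b - a) =
      Real.exp (((b : ℝ) - a) * (2 * (Real.log l - Real.log 2 - B) +
        ((m : ℝ) - 2) * (Real.log N - B))) := by
    rw [e3, e4, ← Real.exp_nat_mul, ← Real.exp_nat_mul, ← Real.exp_add, ← Real.exp_nat_mul,
      Nat.cast_sub hba, Nat.cast_sub (by omega : 2 ≤ m)]
    push_cast
    rfl
  rw [e5]
  calc (2 : ℝ) ^ (m * a) * ((b : ℝ) * (a + 1)) ^ b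
      ≤ Real.exp (Real.log 2 * (m * a)) * Real.exp (2 * B * b) := by
        rw [e1]
        exact mul_le_mul_of_nonneg_left e2 (Real.exp_pos _).le
    _ = Real.exp (Real.log 2 * (m * a) + 2 * B * b) := by rw [Real.exp_add]
    _ ≤ _ := by
        apply Real.exp_le_exp.2
        set lN := Real.log N
        set ll := Real.log l
        have h2 : Real.log 2 * (m * a) ≤ 0.12 * m * b := by
          have h3 : (m : ℝ) * a ≤ m * (b / 6) := mul_le_mul_of_nonneg_left (by linarith) (by linarith)
          have h4 : Real.log 2 * ((m : ℝ) * a) ≤ 0.7 * (m * (b / 6)) :=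
            mul_le_mul (by linarith) h3 (by positivity) (by norm_num)
          nlinarith
        have h5 : 1.88 * B - 1.4 ≤ 2 * (ll - Real.log 2 - B) := by nlinarith
        have h6 : 0.6 * B ≤ lN - B := by linarith
        have h7 : ((m : ℝ) - 2) * (0.6 * B) ≤ ((m : ℝ) - 2) * (lN - B) :=
          mul_le_mul_of_nonneg_left h6 (by linarith)
        have h8 : 1.88 * B - 1.4 + ((m : ℝ) - 2) * (0.6 * B) ≤
            2 * (ll - Real.log 2 - B) + ((m : ℝ) - 2) * (lN - B) := by linarith
        have h9 : 0 ≤ 1.88 * B - 1.4 + ((m : ℝ) - 2) * (0.6 * B) := by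
          have : 0 ≤ ((m : ℝ) - 2) * (0.6 * B) := by
            apply mul_nonneg <;> linarith
          linarith
        have h10 : (5 / 6 * (b : ℝ)) * (1.88 * B - 1.4 + ((m : ℝ) - 2) * (0.6 * B)) ≤
            ((b : ℝ) - a) * (2 * (ll - Real.log 2 - B) + ((m : ℝ) - 2) * (lN - B)) := by
          apply mul_le_mul _ h8 h9 (by linarith)
          linarith
        have h11 : 0.12 * (m : ℝ) + 2 * B ≤
            5 / 6 * (1.88 * B - 1.4 + ((m : ℝ) - 2) * (0.6 * B)) := by nlinarith
        have h12 := mul_le_mul_of_nonneg_right h11 hbR.le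
        nlinarith

/-- **[MD-LB]** -/
theorem lbm : LBMStep := by
  classical
  intro hRem hMat hDes
  obtain ⟨b0, hb0⟩ := hDes
  refine ⟨max b0 ⌈Real.exp 30⌉₊, ?_⟩
  intro a b n m N lam ha0 hab hab51 hna hlam hsum hm3 hmn hm20 hN1 hN2 hgap hrow
  have ha1 : b0 ≤ a := (le_max_left _ _).trans ha0
  have ha2 : ⌈Real.exp 30⌉₊ ≤ a := (le_max_right _ _).trans ha0
  have haR : Real.exp 30 ≤ a := (Nat.le_ceil _).trans (by exact_mod_cast ha2)
  have hapos : (0 : ℝ) < a := lt_of_lt_of_le (Real.exp_pos _) haR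
  have ha : 1 ≤ a := by
    have : 0 < a := by exact_mod_cast hapos
    exact this
  have hb : 0 < b := by omega
  have hbR : (0 : ℝ) < b := by exact_mod_cast hb
  have hba : a ≤ b := by omega
  have hB : 30 ≤ Real.log b := by
    rw [Real.le_log_iff_exp_le hbR]
    exact haR.trans (by exact_mod_cast hba)
  have hNpos : 0 < N := by
    by_contra h
    have h0 : N = 0 := by omega
    rw [h0] at hN1
    have h1 : b ^ 8 ≤ 0 := by simpa using hN1
    have h2 : 0 < b ^ 8 := pow_pos hb 8
    omega
  have hNR : (0 : ℝ) < N := by exact_mod_cast hNpos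
  have hn1 : 1 < n := by omega
  have hex1 : T4.ex lam 1 = lam ⟨1, hn1⟩ := by
    unfold T4.ex
    rw [dif_pos hn1]
  have hl2 : 2 * N ≤ T4.ex lam 1 := by
    rw [hex1]
    have := hgap ⟨1, hn1⟩ (by show 1 < m; omega)
    omega
  have hlpos : 0 < T4.ex lam 1 := by omega
  have hlR : (0 : ℝ) < (T4.ex lam 1 : ℕ) := by exact_mod_cast hlpos
  -- the logarithms
  have g1 : 50 * Real.log b ≤ 51 * Real.log a := by
    have h1 : ((b : ℝ)) ^ 50 ≤ (a : ℝ) ^ 51 := by exact_mod_cast hab51
    have h2 := Real.log_le_log (by positivity) h1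
    rw [Real.log_pow, Real.log_pow] at h2
    exact_mod_cast h2
  have g2 : 99 * Real.log a ≤ 50 * Real.log (T4.ex lam 1 : ℕ) := by
    have h1 : ((a : ℝ)) ^ 99 ≤ ((T4.ex lam 1 : ℕ) : ℝ) ^ 50 := by exact_mod_cast hrow
    have h2 := Real.log_le_log (by positivity) h1
    rw [Real.log_pow, Real.log_pow] at h2
    exact_mod_cast h2
  have g3 : 8 * Real.log b ≤ 5 * Real.log N := by
    have h1 : ((b : ℝ)) ^ 8 ≤ (N : ℝ) ^ 5 := by exact_mod_cast hN1
    have h2 := Real.log_le_log (by positivity) h1
    rw [Real.log_pow, Real.log_pow] at h2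
    exact_mod_cast h2
  have hnum := num2 ha hab hm3 hB g1 hlR g2 hNR g3
  -- the shape
  let η : Fin n → ℕ := fun i => if (i : ℕ) < m then lam i - N else lam i
  have hexm : ∀ j : Fin n, m ≤ (j : ℕ) → lam j ≤ T4.ex lam m := by
    intro j hj
    have hmn' : m < n := lt_of_le_of_lt hj j.2
    unfold T4.ex
    rw [dif_pos hmn']
    exact hlam hj
  have hηlam : ∀ i : Fin n, (if (i : ℕ) < m then N else 0) + η i = lam i := by
    intro i
    simp only [η]
    by_cases hi : (i : ℕ) < m
    · rw [if_pos hi, if_pos hi]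
      have := hgap i hi
      omega
    · rw [if_neg hi, if_neg hi, zero_add]
  have hη : Antitone η := by
    intro i j hij
    have h1 := hlam hij
    have hij' : (i : ℕ) ≤ j := hij
    simp only [η]
    by_cases hj : (j : ℕ) < m
    · rw [if_pos hj, if_pos (lt_of_le_of_lt hij' hj)]
      omega
    · rw [if_neg hj]
      by_cases hi : (i : ℕ) < m
      · rw [if_pos hi]
        have h2 := hgap i hi
        have h3 := hexm j (not_lt.1 hj)
        omega
      · rw [if_neg hi]
        exact h1
  have hD : MDes b N m := hb0 b m N (by omega) hm3 hm20 hN1 hN2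
  have hT := hMat n a b N m lam η hb hD hmn hη hηlam hsum
  have hR := hRem n a m N lam η hna hmn hlam hη hηlam hgap
  have hG := H539.gt_growth_prod (N := b) hna ha hba hη
  -- the product
  have hP : ((T4.ex lam 1 : ℕ) / (2 * (b : ℝ))) ^ 2 * ((N : ℝ) / b) ^ (m - 2) ≤
      ∏ i, (1 + (η i : ℝ) / b) := by
    rw [← prod_rows (n := n) (by omega) hmn]
    apply prod_le_prod
    · intro i _
      split_ifs <;> positivity
    · intro i _
      have h0 : (0 : ℝ) ≤ (η i : ℝ) / b := by positivity
      by_cases h2 : (i : ℕ) < 2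
      · rw [if_pos h2]
        have h3 : T4.ex lam 1 ≤ lam i := by
          rw [hex1]
          apply hlam
          rw [Fin.le_def]
          show (i : ℕ) ≤ 1
          omega
        have h4 : T4.ex lam 1 ≤ 2 * η i := by
          simp only [η]
          rw [if_pos (by omega)]
          omega
        have h5 : ((T4.ex lam 1 : ℕ) : ℝ) ≤ 2 * η i := by exact_mod_cast h4
        have h6 : ((T4.ex lam 1 : ℕ) : ℝ) / (2 * b) ≤ η i / b := by
          rw [div_le_div_iff₀ (by positivity) hbR]
          nlinarith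
        linarith
      · rw [if_neg h2]
        by_cases h3 : (i : ℕ) < m
        · rw [if_pos h3]
          have h4 : N ≤ η i := by
            simp only [η]
            rw [if_pos h3]
            have := hgap i h3
            omega
          have h5 : (N : ℝ) ≤ η i := by exact_mod_cast h4
          have h6 : (N : ℝ) / b ≤ η i / b := div_le_div_of_nonneg_right h5 hbR.le
          linarith
        · rw [if_neg h3]
          linarith
  have hM : ∑ i, η i ≤ a * b := by
    rw [← hsum]
    apply sum_le_sum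
    intro i _
    have := hηlam i
    omega
  have hT' : (gt n b η : ℝ) ≤ ((b : ℝ) * (a + 1)) ^ b * plethMult b a n lam := by
    have h5 := choose_fact (∑ i, η i) b hb
    have h6 : gt n b η ≤ (b * (a + 1)) ^ b * plethMult b a n lam := by
      calc gt n b η ≤ (((∑ i, η i) + b - 1).choose (b - 1) * b.factorial) *
            plethMult b a n lam := by
            rw [mul_assoc]; exact hT
        _ ≤ ((∑ i, η i) + b) ^ b * plethMult b a n lam := Nat.mul_le_mul_right _ h5
        _ ≤ (b * (a + 1)) ^ b * plethMult b a n lam := by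
            apply Nat.mul_le_mul_right
            apply Nat.pow_le_pow_left
            nlinarith
    exact_mod_cast h6
  have hR' : (gt n a lam : ℝ) ≤ 2 ^ (m * a) * gt n a η := by exact_mod_cast hR
  set Q : ℝ := (∏ i, (1 + (η i : ℝ) / b)) ^ (b - a) with hQ
  have hP1 : (0 : ℝ) < ∏ i, (1 + (η i : ℝ) / b) := prod_pos fun i _ => by positivity
  have hQ0 : 0 < Q := by positivity
  have hQ1 : (2 : ℝ) ^ (m * a) * ((b : ℝ) * (a + 1)) ^ b ≤ Q :=
    hnum.trans (pow_le_pow_left₀ (by positivity) hP _)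
  have hGη : (0 : ℝ) ≤ gt n a η := Nat.cast_nonneg _
  have hTn : (0 : ℝ) ≤ plethMult b a n lam := Nat.cast_nonneg _
  have hfin : (gt n a lam : ℝ) * Q ≤ plethMult b a n lam * Q := by
    calc (gt n a lam : ℝ) * Q ≤ (2 ^ (m * a) * gt n a η) * Q := by gcongr
      _ = 2 ^ (m * a) * (gt n a η * Q) := by ring
      _ ≤ 2 ^ (m * a) * gt n b η := by gcongr
      _ ≤ 2 ^ (m * a) * (((b : ℝ) * (a + 1)) ^ b * plethMult b a n lam) := by gcongr
      _ = (2 ^ (m * a) * ((b : ℝ) * (a + 1)) ^ b) * plethMult b a n lam := by ring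
      _ ≤ Q * plethMult b a n lam := mul_le_mul_of_nonneg_right hQ1 hTn
      _ = plethMult b a n lam * Q := by ring
  have := le_of_mul_le_mul_right hfin hQ0
  exact_mod_cast this

end Vale.Agent.P181.MD.H187
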